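import Mathlib

/-!
Toolbox FixPt (Brouwer / Kakutani), file 5: uniform approximation of a continuous map on the closed
unit ball by a smooth map (Tietze extension to the whole space, then the smooth approximation
theorem of Mathlib).
Blueprint: helper210.
-/

set_option autoImplicit false

open Metric Set Filter Topology
open scoped RealInnerProductSpace

namespace Claimed.Agent.FixPt

variable {E : Type*} [NormedAddCommGroup E] [InnerProductSpace ℝ E] [FiniteDimensional ℝ E]

theorem fp_approx {f : E → E} (hf : ContinuousOn f (closedBall 0 1)) {δ : ℝ} (hδ : 0 < δ) :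
    ∃ q : E → E, ContDiff ℝ 1 q ∧ ∀ x ∈ closedBall (0 : E) 1, ‖q x - f x‖ ≤ δ := by
  have : TietzeExtension E := RCLike.instTietzeExtensionTVS (𝕜 := ℝ)
  obtain ⟨g, hg⟩ := ContinuousMap.exists_restrict_eq (s := closedBall (0 : E) 1) isClosed_closedBall
    (⟨(closedBall (0 : E) 1).domRestrict f, hf.domRestrict⟩ : C(closedBall (0 : E) 1, E))
  obtain ⟨q, hq, hqg, -⟩ := (map_continuous g).exists_contDiff_approx (n := 1) (ε := fun _ => δ)
    continuous_const (fun _ => hδ)
  refine ⟨q, hq, fun x hx => ?_⟩
  have h1 : g x = f x := by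
    have := congrArg (fun h : C(closedBall (0 : E) 1, E) => h ⟨x, hx⟩) hg
    exact this
  have h2 := hqg x
  rw [h1, dist_eq_norm] at h2
  exact h2.le

end Claimed.Agent.FixPt
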