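import Mathlib

/-!
Toolbox FixPt, file 9: balanced mixtures (hypercube Ramsey paper, Lemma 3.2, first half) = a finite
minimax / LP duality statement, by separation of a compact convex set from a closed convex set.
Independent of Brouwer.
Blueprint: helper210.
-/

set_option autoImplicit false

open Set

namespace Claimed.Agent.FixPt

/-- the linear map sending weights to the mixture. -/
noncomputable def fpMix {I L : Type*} [Fintype I] (μ : I → L → ℝ) : (I → ℝ) →ₗ[ℝ] (L → ℝ) :=
  ∑ i, (LinearMap.proj i : (I → ℝ) →ₗ[ℝ] ℝ).smulRight (μ i)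

theorem fpMix_apply {I L : Type*} [Fintype I] (μ : I → L → ℝ) (θ : I → ℝ) (x : L) :
    fpMix μ θ x = ∑ i, θ i * μ i x := by
  simp [fpMix, LinearMap.sum_apply, Finset.sum_apply]

theorem fp_clm_apply_eq_sum {L : Type*} [Fintype L] [DecidableEq L] (f : (L → ℝ) →L[ℝ] ℝ) (v : L → ℝ) :
    f v = ∑ x, f (Pi.single x 1) * v x := by
  have h : v = ∑ x, v x • (Pi.single x (1 : ℝ) : L → ℝ) := by
    ext y
    simp [Finset.sum_apply, Pi.single_apply]
  conv_lhs => rw [h]
  rw [map_sum]
  refine Finset.sum_congr rfl fun x _ => ?_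
  rw [map_smul, smul_eq_mul, mul_comm]

theorem fp_balanced {I L : Type*} [Fintype I] [Fintype L] (μ : I → L → ℝ) (c : L → ℝ)
    (hprice : ∀ w : L → ℝ, (∀ x, 0 ≤ w x) → ∃ i, ∑ x, w x * μ i x ≤ ∑ x, w x * c x) :
    ∃ θ ∈ stdSimplex ℝ I, ∀ x, ∑ i, θ i * μ i x ≤ c x := by
  classical
  by_contra hcon
  push Not at hcon
  set A : Set (L → ℝ) := fpMix μ '' stdSimplex ℝ I with hA
  set B : Set (L → ℝ) := {v | ∀ x, v x ≤ c x} with hB
  have hAconv : Convex ℝ A := (convex_stdSimplex ℝ I).linear_image _
  have hAcomp : IsCompact A :=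
    (isCompact_stdSimplex ℝ I).image (LinearMap.continuous_of_finiteDimensional _)
  have hBconv : Convex ℝ B := by
    intro u hu v hv a b ha hb hab x
    have h1 := hu x
    have h2 := hv x
    simp only [Pi.add_apply, Pi.smul_apply, smul_eq_mul]
    calc a * u x + b * v x ≤ a * c x + b * c x := by
          gcongr
      _ = c x := by rw [← add_mul, hab, one_mul]
  have hBclosed : IsClosed B := by
    have : B = ⋂ x, {v : L → ℝ | v x ≤ c x} := by
      ext v; simp [hB]
    rw [this]
    exact isClosed_iInter fun x => isClosed_le (continuous_apply x) continuous_const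
  have hdisj : Disjoint A B := by
    rw [Set.disjoint_left]
    rintro _ ⟨θ, hθ, rfl⟩ hv
    obtain ⟨x, hx⟩ := hcon θ hθ
    have := hv x
    rw [fpMix_apply] at this
    linarith
  obtain ⟨f, u, v, hfA, huv, hfB⟩ :=
    geometric_hahn_banach_compact_closed hAconv hAcomp hBconv hBclosed hdisj
  have hcB : c ∈ B := fun x => le_rfl
  -- the coefficients of `f` are nonpositive
  have hw : ∀ x, f (Pi.single x 1) ≤ 0 := by
    intro x
    by_contra hpos
    push Not at hpos
    set t : ℝ := (f c - v) / f (Pi.single x 1) with ht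
    have htpos : 0 ≤ t := div_nonneg (by linarith [hfB c hcB]) hpos.le
    have hmem : c - t • (Pi.single x (1 : ℝ) : L → ℝ) ∈ B := by
      intro y
      simp only [Pi.sub_apply, Pi.smul_apply, smul_eq_mul, Pi.single_apply]
      split_ifs <;> nlinarith
    have h1 := hfB _ hmem
    rw [map_sub, map_smul, smul_eq_mul, ht, div_mul_cancel₀ _ hpos.ne'] at h1
    linarith
  obtain ⟨i, hi⟩ := hprice (fun x => - f (Pi.single x 1)) (fun x => by linarith [hw x])
  have hμA : μ i ∈ A := by
    refine ⟨Pi.single i 1, single_mem_stdSimplex ℝ i, ?_⟩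
    ext x
    rw [fpMix_apply]
    simp [Pi.single_apply]
  have h1 := hfA _ hμA
  have h2 := hfB _ hcB
  rw [fp_clm_apply_eq_sum f (μ i)] at h1
  rw [fp_clm_apply_eq_sum f c] at h2
  simp only [neg_mul, Finset.sum_neg_distrib] at hi
  linarith

end Claimed.Agent.FixPt
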