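import Mathlib

/-!
Toolbox FixPt (Brouwer / Kakutani), file 2: a contraction perturbation of the identity which fixes
the unit sphere and maps the open unit ball into itself maps the open unit ball ONTO itself.
Owner: helper210.
-/

set_option autoImplicit false

open Metric Set Filter Topology
open scoped NNReal

namespace Claimed.Agent.FixPt

variable {E : Type*} [NormedAddCommGroup E] [NormedSpace ℝ E]

omit [NormedSpace ℝ E] in
theorem fp_injOn {g : E → E} {c : ℝ≥0} {s : Set E} (hc : c < 1) (hg : LipschitzOnWith c g s) :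
    InjOn (fun x => x + g x) s := by
  intro x hx y hy hxy
  have hxy' : x + g x = y + g y := hxy
  have h1 : x - y = g y - g x := by
    rw [sub_eq_sub_iff_add_eq_add, hxy', add_comm]
  have h2 : ‖g y - g x‖ ≤ c * ‖y - x‖ := by
    simpa [dist_eq_norm] using hg.dist_le_mul y hy x hx
  by_contra hne
  have hpos : 0 < ‖x - y‖ := norm_pos_iff.2 (sub_ne_zero.2 hne)
  rw [← h1, norm_sub_rev y x] at h2
  have hc' : (c : ℝ) < 1 := hc
  nlinarith

theorem fp_image_ball [FiniteDimensional ℝ E] {g : E → E} {c : ℝ≥0} (hc : c < 1)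
    (hg : LipschitzOnWith c g (closedBall 0 1))
    (hmaps : ∀ x ∈ ball (0 : E) 1, x + g x ∈ ball (0 : E) 1)
    (hbd : ∀ x ∈ sphere (0 : E) 1, g x = 0) :
    (fun x => x + g x) '' ball 0 1 = ball 0 1 := by
  have : ProperSpace E := FiniteDimensional.proper_real E
  have : CompleteSpace E := FiniteDimensional.complete ℝ E
  set f : E → E := fun x => x + g x with hf
  have hfc : ContinuousOn f (closedBall 0 1) := continuousOn_id.add hg.continuousOn
  have happ : ApproximatesLinearOn f ((ContinuousLinearEquiv.refl ℝ E : E ≃L[ℝ] E) : E →L[ℝ] E)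
      (ball 0 1) c := by
    intro x hx y hy
    have e : f x - f y - ((ContinuousLinearEquiv.refl ℝ E : E ≃L[ℝ] E) : E →L[ℝ] E) (x - y)
        = g x - g y := by
      simp only [hf, ContinuousLinearEquiv.coe_coe, ContinuousLinearEquiv.coe_refl', id]
      abel
    rw [e]
    simpa [dist_eq_norm] using
      hg.dist_le_mul x (ball_subset_closedBall hx) y (ball_subset_closedBall hy)
  have hopen : IsOpen (f '' ball 0 1) := by
    by_cases hE : Subsingleton E
    · exact isOpen_discrete _
    · have hN : ‖(((ContinuousLinearEquiv.refl ℝ E : E ≃L[ℝ] E).symm : E ≃L[ℝ] E) : E →L[ℝ] E)‖₊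
          ≤ 1 := by
        have : (((ContinuousLinearEquiv.refl ℝ E : E ≃L[ℝ] E).symm : E ≃L[ℝ] E) : E →L[ℝ] E)
            = ContinuousLinearMap.id ℝ E := rfl
        rw [this]
        exact ContinuousLinearMap.norm_id_le
      have hN0 : ‖(((ContinuousLinearEquiv.refl ℝ E : E ≃L[ℝ] E).symm : E ≃L[ℝ] E) : E →L[ℝ] E)‖₊
          ≠ 0 := by
        rw [not_subsingleton_iff_nontrivial] at hE
        have : (((ContinuousLinearEquiv.refl ℝ E : E ≃L[ℝ] E).symm : E ≃L[ℝ] E) : E →L[ℝ] E)
            = ContinuousLinearMap.id ℝ E := rfl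
        rw [this]
        simp
      have hc2 : c < ‖(((ContinuousLinearEquiv.refl ℝ E : E ≃L[ℝ] E).symm : E ≃L[ℝ] E) :
          E →L[ℝ] E)‖₊⁻¹ := by
        refine lt_of_lt_of_le hc ?_
        rw [NNReal.le_inv_iff_mul_le hN0, one_mul]
        exact hN
      have h := (happ.toOpenPartialHomeomorph f (ball 0 1) (Or.inr hc2) isOpen_ball).open_target
      rwa [ApproximatesLinearOn.toOpenPartialHomeomorph_target] at h
  have hclosed : IsClosed (f '' closedBall 0 1) :=
    ((isCompact_closedBall (0 : E) 1).image_of_continuousOn hfc).isClosed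
  refine Subset.antisymm ?_ ?_
  · rintro _ ⟨x, hx, rfl⟩
    exact hmaps x hx
  · have hpre : IsPreconnected (ball (0 : E) 1) := (convex_ball (0 : E) 1).isPreconnected
    refine hpre.subset_left_of_subset_union hopen hclosed.isOpen_compl ?_ ?_ ?_
    · rw [Set.disjoint_left]
      rintro _ ⟨x, hx, rfl⟩ hn
      exact hn ⟨x, ball_subset_closedBall hx, rfl⟩
    · intro y hy
      by_cases h : y ∈ f '' closedBall 0 1
      · left
        obtain ⟨x, hx, rfl⟩ := h
        rcases (mem_closedBall_zero_iff.1 hx).lt_or_eq with hlt | heq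
        · exact ⟨x, mem_ball_zero_iff.2 hlt, rfl⟩
        · exfalso
          have hxs : x ∈ sphere (0 : E) 1 := mem_sphere_zero_iff_norm.2 heq
          have : f x = x := by simp only [hf]; rw [hbd x hxs, add_zero]
          rw [this, mem_ball_zero_iff, heq] at hy
          exact lt_irrefl _ hy
      · right
        exact h
    · exact ⟨f 0, hmaps 0 (mem_ball_self one_pos), ⟨0, mem_ball_self one_pos, rfl⟩⟩

end Claimed.Agent.FixPt
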