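import Claimed.Agent.FixPt.Ray
import Claimed.Agent.FixPt.Approx

/-!
Toolbox FixPt (Brouwer / Kakutani), file 6: the Brouwer fixed point theorem for the closed unit
ball of a finite dimensional real inner product space and for nonempty compact convex subsets of a
finite dimensional real normed space.
Blueprint: helper210.  Proofs: helper66.
-/

set_option autoImplicit false

open Metric Set Filter Topology
open scoped RealInnerProductSpace

namespace Claimed.Agent.FixPt

/-- Brouwer for the closed unit ball. -/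
theorem fp_brouwer_ball {E : Type*} [NormedAddCommGroup E] [InnerProductSpace ℝ E]
    [FiniteDimensional ℝ E] {f : E → E} (hf : ContinuousOn f (closedBall 0 1))
    (hmaps : MapsTo f (closedBall 0 1) (closedBall 0 1)) :
    ∃ x ∈ closedBall (0 : E) 1, f x = x := by
  by_contra hno
  push Not at hno
  -- the displacement has a positive minimum
  have hcomp : IsCompact (closedBall (0 : E) 1) := isCompact_closedBall 0 1
  have hne : (closedBall (0 : E) 1).Nonempty := ⟨0, by simp⟩
  have hg : ContinuousOn (fun x => ‖f x - x‖) (closedBall (0 : E) 1) :=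
    (hf.sub continuousOn_id).norm
  obtain ⟨x₀, hx₀, hmin⟩ := hcomp.exists_isMinOn hne hg
  set m : ℝ := ‖f x₀ - x₀‖ with hm
  have hmpos : 0 < m := by
    rw [hm, norm_pos_iff, sub_ne_zero]
    exact hno x₀ hx₀
  have hmle : ∀ x ∈ closedBall (0 : E) 1, m ≤ ‖f x - x‖ := fun x hx => hmin hx
  -- approximate
  set δ : ℝ := m / 3 with hδ
  have hδpos : 0 < δ := by positivity
  obtain ⟨q, hq, hqf⟩ := fp_approx hf hδpos
  have h1δ : 0 < 1 + δ := by positivity
  have hqn : ∀ x ∈ closedBall (0 : E) 1, ‖q x‖ ≤ 1 + δ := by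
    intro x hx
    have h1 : ‖f x‖ ≤ 1 := by simpa using hmaps hx
    have h2 := hqf x hx
    calc ‖q x‖ = ‖(q x - f x) + f x‖ := by rw [sub_add_cancel]
      _ ≤ ‖q x - f x‖ + ‖f x‖ := norm_add_le _ _
      _ ≤ δ + 1 := add_le_add h2 h1
      _ = 1 + δ := add_comm _ _
  set p : E → E := fun x => (1 + δ)⁻¹ • q x with hp
  have hpC : ContDiff ℝ 1 p := contDiff_const.smul hq
  have hpm : ∀ x ∈ closedBall (0 : E) 1, p x ∈ closedBall (0 : E) 1 := by
    intro x hx
    rw [mem_closedBall_zero_iff, hp]
    simp only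
    rw [norm_smul, Real.norm_eq_abs, abs_of_pos (inv_pos.mpr h1δ), inv_mul_le_iff₀ h1δ, mul_one]
    exact hqn x hx
  obtain ⟨x, hx, hfix⟩ := fp_brouwer_smooth hpC hpm
  have hqx : q x = (1 + δ) • x := by
    have h : (1 + δ) • p x = q x := by
      simp only [hp]
      rw [smul_smul, mul_inv_cancel₀ h1δ.ne', one_smul]
    rw [← h, hfix]
  have hxn : ‖x‖ ≤ 1 := by simpa using hx
  have : ‖f x - x‖ ≤ 2 * δ := by
    have h2 := hqf x hx
    have e : f x - x = -(q x - f x) + δ • x := by
      rw [hqx, add_smul, one_smul]; abel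
    calc ‖f x - x‖ = ‖-(q x - f x) + δ • x‖ := by rw [e]
      _ ≤ ‖-(q x - f x)‖ + ‖δ • x‖ := norm_add_le _ _
      _ = ‖q x - f x‖ + δ * ‖x‖ := by
          rw [norm_neg, norm_smul, Real.norm_eq_abs, abs_of_pos hδpos]
      _ ≤ δ + δ * 1 := add_le_add h2 (mul_le_mul_of_nonneg_left hxn hδpos.le)
      _ = 2 * δ := by ring
  have := hmle x hx
  linarith

/-- Brouwer for compact convex sets in an inner product space (metric projection). -/
theorem fp_brouwer_convex_inner {E : Type*} [NormedAddCommGroup E] [InnerProductSpace ℝ E]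
    [FiniteDimensional ℝ E] {K : Set E} (hK : IsCompact K) (hconv : Convex ℝ K)
    (hne : K.Nonempty) {f : E → E} (hf : ContinuousOn f K) (hmaps : MapsTo f K K) :
    ∃ x ∈ K, f x = x := by
  -- metric projection
  have hex : ∀ u : E, ∃ v ∈ K, ∀ w ∈ K, ⟪u - v, w - v⟫ ≤ 0 := by
    intro u
    obtain ⟨v, hv, hvu⟩ := exists_norm_eq_iInf_of_complete_convex hne hK.isComplete hconv u
    exact ⟨v, hv, (norm_eq_iInf_iff_real_inner_le_zero hconv hv).mp hvu⟩
  choose P hPK hP using hex
  have hPid : ∀ x ∈ K, P x = x := by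
    intro x hx
    have h := hP x x hx
    rw [real_inner_self_eq_norm_sq] at h
    have h0 : ‖x - P x‖ = 0 := by nlinarith [norm_nonneg (x - P x)]
    rw [norm_eq_zero, sub_eq_zero] at h0
    exact h0.symm
  have hPlip : LipschitzWith 1 P := by
    refine LipschitzWith.mk_one fun x y => ?_
    rw [dist_eq_norm, dist_eq_norm]
    have h1 := hP x (P y) (hPK y)
    have h2 := hP y (P x) (hPK x)
    have h3 : ‖P x - P y‖ ^ 2 ≤ ⟪x - y, P x - P y⟫ := by
      have e : ⟪x - y, P x - P y⟫ - ‖P x - P y‖ ^ 2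
          = -⟪x - P x, P y - P x⟫ - ⟪y - P y, P x - P y⟫ := by
        rw [← real_inner_self_eq_norm_sq]
        simp only [inner_sub_left, inner_sub_right]
        ring
      linarith
    have h4 : ⟪x - y, P x - P y⟫ ≤ ‖x - y‖ * ‖P x - P y‖ := real_inner_le_norm _ _
    by_cases h0 : ‖P x - P y‖ = 0
    · rw [h0]; exact norm_nonneg _
    · have hpos : 0 < ‖P x - P y‖ := lt_of_le_of_ne (norm_nonneg _) (Ne.symm h0)
      have : ‖P x - P y‖ * ‖P x - P y‖ ≤ ‖x - y‖ * ‖P x - P y‖ := by
        calc ‖P x - P y‖ * ‖P x - P y‖ = ‖P x - P y‖ ^ 2 := by ring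
          _ ≤ _ := h3.trans h4
      exact le_of_mul_le_mul_right this hpos
  -- a radius
  obtain ⟨R₀, hR₀⟩ := hK.isBounded.subset_closedBall (0 : E)
  set R : ℝ := max R₀ 1 with hR
  have hRpos : 0 < R := lt_of_lt_of_le one_pos (le_max_right _ _)
  have hKR : ∀ x ∈ K, ‖x‖ ≤ R := by
    intro x hx
    have := hR₀ hx
    rw [mem_closedBall_zero_iff] at this
    exact this.trans (le_max_left _ _)
  set g : E → E := fun y => R⁻¹ • f (P (R • y)) with hg
  have hgc : Continuous g := by
    have h1 : Continuous fun y : E => P (R • y) := hPlip.continuous.comp (continuous_const_smul R)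
    have h2 : Continuous fun y : E => f (P (R • y)) :=
      hf.comp_continuous h1 fun y => hPK _
    exact h2.const_smul _
  have hgm : MapsTo g (closedBall 0 1) (closedBall 0 1) := by
    intro y _
    rw [mem_closedBall_zero_iff, hg]
    simp only
    rw [norm_smul, Real.norm_eq_abs, abs_of_pos (inv_pos.mpr hRpos), inv_mul_le_iff₀ hRpos, mul_one]
    exact hKR _ (hmaps (hPK _))
  obtain ⟨y, _, hy⟩ := fp_brouwer_ball hgc.continuousOn hgm
  have h1 : f (P (R • y)) = R • y := by
    have h : R • g y = f (P (R • y)) := by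
      simp only [hg]
      rw [smul_smul, mul_inv_cancel₀ hRpos.ne', one_smul]
    rw [← h, hy]
  have h2 : R • y ∈ K := by
    rw [← h1]; exact hmaps (hPK _)
  refine ⟨R • y, h2, ?_⟩
  rw [hPid _ h2] at h1
  exact h1

/-- **Brouwer fixed point theorem** for compact convex sets in finite dimension. -/
theorem fp_brouwer_convex {F : Type*} [NormedAddCommGroup F] [NormedSpace ℝ F]
    [FiniteDimensional ℝ F] {K : Set F} (hK : IsCompact K) (hconv : Convex ℝ K)
    (hne : K.Nonempty) {f : F → F} (hf : ContinuousOn f K) (hmaps : MapsTo f K K) :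
    ∃ x ∈ K, f x = x := by
  set e : F ≃L[ℝ] EuclideanSpace ℝ (Fin (Module.finrank ℝ F)) := toEuclidean with he
  have hK' : IsCompact (e '' K) := hK.image e.continuous
  have hconv' : Convex ℝ (e '' K) := hconv.linear_image e.toLinearEquiv.toLinearMap
  have hne' : (e '' K).Nonempty := hne.image _
  have hsymm : MapsTo e.symm (e '' K) K := by
    rintro _ ⟨x, hx, rfl⟩
    simpa using hx
  have hf' : ContinuousOn (fun z => e (f (e.symm z))) (e '' K) :=
    e.continuous.comp_continuousOn (hf.comp e.symm.continuous.continuousOn hsymm)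
  have hmaps' : MapsTo (fun z => e (f (e.symm z))) (e '' K) (e '' K) := by
    intro z hz
    exact ⟨f (e.symm z), hmaps (hsymm hz), rfl⟩
  obtain ⟨z, hz, hfix⟩ := fp_brouwer_convex_inner hK' hconv' hne' hf' hmaps'
  refine ⟨e.symm z, hsymm hz, ?_⟩
  have := congrArg e.symm hfix
  simpa using this

end Claimed.Agent.FixPt
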