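import Mathlib

/-!
Toolbox FixPt (Brouwer / Kakutani), file 1: determinant facts used in the volume argument.
Owner: helper210.
-/

set_option autoImplicit false

open Metric Set MeasureTheory Filter Topology
open scoped RealInnerProductSpace NNReal ENNReal

namespace Claimed.Agent.FixPt

variable {E : Type*} [NormedAddCommGroup E] [InnerProductSpace ℝ E] [FiniteDimensional ℝ E]

/-- `t ↦ det (1 + t A)` is a polynomial of degree at most `dim E`. -/
theorem fp_det_poly (A : E →L[ℝ] E) :
    ∃ p : Polynomial ℝ, p.natDegree ≤ Module.finrank ℝ E ∧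
      ∀ t : ℝ, p.eval t = (ContinuousLinearMap.id ℝ E + t • A).det := by
  classical
  set b := Module.finBasis ℝ E with hb
  set M : Matrix (Fin (Module.finrank ℝ E)) (Fin (Module.finrank ℝ E)) ℝ :=
    LinearMap.toMatrix b b (A : E →ₗ[ℝ] E) with hM
  refine ⟨(-M).charpolyRev, ?_, fun t => ?_⟩
  · rw [← Matrix.reverse_charpoly]
    refine (Polynomial.reverse_natDegree_le _).trans ?_
    rw [Matrix.charpoly_natDegree_eq_dim, Fintype.card_fin]
  · have h1 : (ContinuousLinearMap.id ℝ E + t • A).det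
        = (LinearMap.toMatrix b b ((LinearMap.id : E →ₗ[ℝ] E) + t • (A : E →ₗ[ℝ] E))).det := by
      rw [LinearMap.det_toMatrix]
      rfl
    rw [h1, map_add, map_smul, LinearMap.toMatrix_id, ← hM]
    unfold Matrix.charpolyRev
    rw [← Polynomial.coe_evalRingHom, RingHom.map_det]
    congr 1
    ext i j
    simp [Matrix.one_apply, apply_ite]
    ring

/-- The integral of `det (1 + t A x)` is a polynomial in `t`. -/
theorem fp_integral_det_poly [MeasurableSpace E] (μ : Measure E) (s : Set E)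
    (A : E → E →L[ℝ] E)
    (hint : ∀ t : ℝ, IntegrableOn (fun x => (ContinuousLinearMap.id ℝ E + t • A x).det) s μ) :
    ∃ P : Polynomial ℝ, ∀ t : ℝ,
      P.eval t = ∫ x in s, (ContinuousLinearMap.id ℝ E + t • A x).det ∂μ := by
  classical
  set n := Module.finrank ℝ E with hn
  let v : Fin (n + 1) → ℝ := fun i => (i : ℝ)
  have hv : Set.InjOn v (Finset.univ : Finset (Fin (n + 1))) := by
    intro i _ j _ h
    have h' : ((i : ℕ) : ℝ) = ((j : ℕ) : ℝ) := h
    exact Fin.ext (by exact_mod_cast h')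
  refine ⟨∑ i, Polynomial.C (∫ x in s, (ContinuousLinearMap.id ℝ E + v i • A x).det ∂μ) *
    Lagrange.basis Finset.univ v i, fun t => ?_⟩
  have key : ∀ x, (ContinuousLinearMap.id ℝ E + t • A x).det
      = ∑ i, (ContinuousLinearMap.id ℝ E + v i • A x).det *
        (Lagrange.basis Finset.univ v i).eval t := by
    intro x
    obtain ⟨p, hdeg, hp⟩ := fp_det_poly (A x)
    have hlt : p.degree < (Finset.univ : Finset (Fin (n + 1))).card := by
      rw [Finset.card_univ, Fintype.card_fin]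
      refine lt_of_le_of_lt Polynomial.degree_le_natDegree ?_
      exact_mod_cast Nat.lt_succ_of_le hdeg
    have h2 := Lagrange.eq_interpolate hv hlt
    have h3 : p.eval t = (Lagrange.interpolate Finset.univ v fun i => p.eval (v i)).eval t := by
      rw [← h2]
    rw [← hp t, h3, Lagrange.interpolate_apply, Polynomial.eval_finsetSum]
    refine Finset.sum_congr rfl fun i _ => ?_
    rw [Polynomial.eval_mul, Polynomial.eval_C, hp]
  simp_rw [key]
  rw [integral_finsetSum _ (fun i _ => (hint (v i)).mul_const _), Polynomial.eval_finsetSum]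
  refine Finset.sum_congr rfl fun i _ => ?_
  rw [Polynomial.eval_mul, Polynomial.eval_C, integral_mul_const]

/-- `1 + s A` has nonzero determinant when `s ‖A‖ < 1`. -/
theorem fp_det_ne_zero (A : E →L[ℝ] E) {t : ℝ} (ht : 0 ≤ t) (h : t * ‖A‖ < 1) :
    (ContinuousLinearMap.id ℝ E + t • A).det ≠ 0 := by
  intro h0
  have h1 := LinearMap.bot_lt_ker_of_det_eq_zero
    (f := ((ContinuousLinearMap.id ℝ E + t • A : E →L[ℝ] E) : E →ₗ[ℝ] E)) h0
  obtain ⟨v, hv, hv0⟩ := SetLike.exists_of_lt h1
  have hv0' : v ≠ 0 := by simpa using hv0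
  have hv' : v + t • A v = 0 := by simpa using hv
  have h2 : ‖v‖ = ‖t • A v‖ := by
    have e : v = -(t • A v) := eq_neg_of_add_eq_zero_left hv'
    calc ‖v‖ = ‖-(t • A v)‖ := congrArg norm e
      _ = ‖t • A v‖ := norm_neg _
  have h3 : ‖t • A v‖ ≤ t * ‖A‖ * ‖v‖ := by
    rw [norm_smul, Real.norm_of_nonneg ht, mul_assoc]
    exact mul_le_mul_of_nonneg_left (A.le_opNorm v) ht
  have hpos : 0 < ‖v‖ := norm_pos_iff.2 hv0'
  nlinarith

/-- `det (1 + t A) > 0` when `t ‖A‖ < 1`. -/
theorem fp_det_pos (A : E →L[ℝ] E) {t : ℝ} (ht : 0 ≤ t) (h : t * ‖A‖ < 1) :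
    0 < (ContinuousLinearMap.id ℝ E + t • A).det := by
  by_contra hneg
  rw [not_lt] at hneg
  set φ : ℝ → ℝ := fun s => (ContinuousLinearMap.id ℝ E + s • A).det with hφ
  have hc : Continuous φ :=
    ContinuousLinearMap.continuous_det.comp (continuous_const.add (continuous_id.smul continuous_const))
  have h0 : φ 0 = 1 := by
    simp only [hφ, zero_smul, add_zero]
    exact LinearMap.det_id
  have hmem : (0 : ℝ) ∈ Icc (φ t) (φ 0) := ⟨hneg, by rw [h0]; exact zero_le_one⟩
  obtain ⟨s, hs, hs0⟩ := intermediate_value_Icc' ht hc.continuousOn hmem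
  refine fp_det_ne_zero A hs.1 ?_ hs0
  exact lt_of_le_of_lt (mul_le_mul_of_nonneg_right hs.2 (norm_nonneg _)) h

/-- The derivative of a map with values in the unit sphere is singular. -/
theorem fp_det_eq_zero_of_sphere {r : E → E} {x : E} {r' : E →L[ℝ] E} (h : HasFDerivAt r r' x)
    (hs : ∀ᶠ y in 𝓝 x, ‖r y‖ = 1) : r'.det = 0 := by
  by_contra hdet
  have h1 : HasFDerivAt (fun y => ‖r y‖ ^ 2) (2 • (innerSL ℝ (r x)).comp r') x := h.norm_sq
  have h2 : HasFDerivAt (fun y => ‖r y‖ ^ 2) (0 : E →L[ℝ] ℝ) x := by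
    refine (hasFDerivAt_const (1 : ℝ) x).congr_of_eventuallyEq ?_
    filter_upwards [hs] with y hy
    rw [hy, one_pow]
  have h3 := h1.unique h2
  let e := LinearMap.equivOfDetNeZero (r' : E →ₗ[ℝ] E) hdet
  obtain ⟨v, hv⟩ := e.surjective (r x)
  have hv' : r' v = r x := hv
  have h4 : (2 • (innerSL ℝ (r x)).comp r') v = 0 := by rw [h3]; rfl
  have h5 : (2 : ℝ) * ⟪r x, r x⟫ = 0 := by
    have : (2 • (innerSL ℝ (r x)).comp r') v = 2 * ⟪r x, r' v⟫ := by
      simp [two_mul, two_smul]
    rw [this, hv'] at h4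
    exact h4
  have h6 : ‖r x‖ = 1 := hs.self_of_nhds
  rw [real_inner_self_eq_norm_sq, h6] at h5
  norm_num at h5

end Claimed.Agent.FixPt
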