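import Claimed.Agent.FixPt.Brouwer

/-!
Toolbox FixPt (Brouwer / Kakutani), file 7: the Kakutani fixed point theorem in finite dimension.
Proof: for `δ > 0` take a finite `δ`-net `x_i` of `K`, the partition of unity
`φ_i x = max (δ - ‖x - x_i‖) 0 / Σ_j max (δ - ‖x - x_j‖) 0`, points `y_i ∈ Φ x_i` and
`f_δ = Σ φ_i • y_i`; Brouwer gives `x_δ = f_δ x_δ`; take a cluster point `x*`; if `x* ∉ Φ x*` then
an open half space (Hahn-Banach) contains `Φ x*`, misses a neighbourhood of `x*` and contains `Φ x`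
for `x` near `x*`.
Blueprint: helper210.  Proof: helper196.
-/

set_option autoImplicit false

open Metric Set Filter Topology

namespace Claimed.Agent.FixPt

/-- Approximate fixed points: for every `δ > 0` there is `x ∈ K` lying in every convex set that
contains the values `Φ x'` at all points `x' ∈ K` at distance `< δ` of `x`. -/
theorem fp_kakutani_approx {F : Type*} [NormedAddCommGroup F] [NormedSpace ℝ F]
    [FiniteDimensional ℝ F]
    {K : Set F} (hK : IsCompact K) (hconv : Convex ℝ K) (hne : K.Nonempty)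
    (Φ : F → Set F) (hΦne : ∀ x ∈ K, (Φ x).Nonempty) (hΦsub : ∀ x ∈ K, Φ x ⊆ K)
    {δ : ℝ} (hδ : 0 < δ) :
    ∃ x ∈ K, ∀ U : Set F, Convex ℝ U → (∀ x' ∈ K, dist x x' < δ → Φ x' ⊆ U) → x ∈ U := by
  classical
  obtain ⟨t, htK, htfin, hcover⟩ := finite_cover_balls_of_compact hK hδ
  set T : Finset F := htfin.toFinset with hT
  have hTK : ∀ i ∈ T, i ∈ K := fun i hi => htK (htfin.mem_toFinset.mp hi)
  choose! y hy using hΦne
  set w : F → F → ℝ := fun i x => max (δ - dist x i) 0 with hw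
  have hw0 : ∀ i x, 0 ≤ w i x := fun i x => le_max_right _ _
  have hwc : ∀ i, Continuous (w i) := fun i =>
    (continuous_const.sub (continuous_id.dist continuous_const)).max continuous_const
  set S : F → ℝ := fun x => ∑ i ∈ T, w i x with hS
  have hSc : Continuous S := continuous_finsetSum _ fun i _ => hwc i
  have hSpos : ∀ x ∈ K, 0 < S x := by
    intro x hx
    obtain ⟨i, hi, hxi⟩ := mem_iUnion₂.mp (hcover hx)
    have hiT : i ∈ T := htfin.mem_toFinset.mpr hi
    have : 0 < w i x := lt_max_of_lt_left (sub_pos.mpr (mem_ball.mp hxi))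
    exact this.trans_le (Finset.single_le_sum (f := fun i => w i x) (fun j _ => hw0 j x) hiT)
  set f : F → F := fun x => ∑ i ∈ T, (w i x / S x) • y i with hf
  have hfc : ContinuousOn f K := by
    apply continuousOn_finsetSum
    intro i _
    exact ((hwc i).continuousOn.div hSc.continuousOn fun x hx => (hSpos x hx).ne').smul
      continuousOn_const
  have hsum1 : ∀ x ∈ K, ∑ i ∈ T, w i x / S x = 1 := by
    intro x hx
    rw [← Finset.sum_div]
    exact div_self (hSpos x hx).ne'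
  have hmaps : MapsTo f K K := by
    intro x hx
    exact hconv.sum_mem (fun i _ => div_nonneg (hw0 i x) (hSpos x hx).le) (hsum1 x hx)
      fun i hi => hΦsub i (hTK i hi) (hy i (hTK i hi))
  obtain ⟨x, hxK, hfx⟩ := fp_brouwer_convex hK hconv hne hfc hmaps
  refine ⟨x, hxK, fun U hU hΦU => ?_⟩
  rw [← hfx]
  have h1 : f x = ∑ i ∈ T.filter (fun i => w i x / S x ≠ 0), (w i x / S x) • y i := by
    rw [hf]
    symm
    apply Finset.sum_filter_of_ne
    intro i _ hi h0
    exact hi (by rw [h0, zero_smul])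
  have h2 : ∑ i ∈ T.filter (fun i => w i x / S x ≠ 0), w i x / S x = 1 := by
    rw [← hsum1 x hxK]
    apply Finset.sum_filter_of_ne
    intro i _ hi
    exact hi
  rw [h1]
  refine hU.sum_mem (fun i _ => div_nonneg (hw0 i x) (hSpos x hxK).le) h2 ?_
  intro i hi
  obtain ⟨hiT, hne0⟩ := Finset.mem_filter.mp hi
  have hwi : w i x ≠ 0 := fun h => hne0 (by rw [h, zero_div])
  have hdist : dist x i < δ := by
    by_contra hcon
    apply hwi
    exact max_eq_right (by linarith [not_lt.mp hcon])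
  exact hΦU i (hTK i hiT) hdist (hy i (hTK i hiT))

/-- **Kakutani fixed point theorem.** -/
theorem fp_kakutani {F : Type*} [NormedAddCommGroup F] [NormedSpace ℝ F] [FiniteDimensional ℝ F]
    {K : Set F} (hK : IsCompact K) (hconv : Convex ℝ K) (hne : K.Nonempty)
    (Φ : F → Set F) (hΦne : ∀ x ∈ K, (Φ x).Nonempty) (hΦconv : ∀ x ∈ K, Convex ℝ (Φ x))
    (hΦsub : ∀ x ∈ K, Φ x ⊆ K)
    (hgraph : IsClosed {p : F × F | p.1 ∈ K ∧ p.2 ∈ Φ p.1}) :
    ∃ x ∈ K, x ∈ Φ x := by
  have happ := fun n : ℕ => fp_kakutani_approx hK hconv hne Φ hΦne hΦsub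
    (δ := 1 / ((n : ℝ) + 1)) (by positivity)
  choose x hxK hx using happ
  obtain ⟨a, haK, φ, hφ, hlim⟩ := hK.tendsto_subseq hxK
  refine ⟨a, haK, ?_⟩
  by_contra hnot
  have hclosed : IsClosed (Φ a) := by
    have h1 : Φ a = (fun y : F => (a, y)) ⁻¹' {p : F × F | p.1 ∈ K ∧ p.2 ∈ Φ p.1} := by
      ext y
      simp [haK]
    rw [h1]
    exact hgraph.preimage (by fun_prop)
  obtain ⟨ℓ, u, hℓ, hu⟩ := geometric_hahn_banach_closed_point (hΦconv a haK) hclosed hnot
  -- the set of points having a value outside the open half space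
  set G : Set (F × F) := {p : F × F | p.1 ∈ K ∧ p.2 ∈ Φ p.1} with hG
  have hGc : IsCompact G :=
    (hK.prod hK).of_isClosed_subset hgraph fun p hp => ⟨hp.1, hΦsub p.1 hp.1 hp.2⟩
  have hHc : IsClosed {p : F × F | u ≤ ℓ p.2} :=
    isClosed_le continuous_const (ℓ.continuous.comp continuous_snd)
  set P : Set F := Prod.fst '' (G ∩ {p : F × F | u ≤ ℓ p.2}) with hP
  have hPclosed : IsClosed P := ((hGc.inter_right hHc).image continuous_fst).isClosed
  have haP : a ∉ P := by
    rintro ⟨⟨a', y⟩, ⟨⟨_, hy⟩, huy⟩, rfl⟩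
    exact absurd (hℓ y hy) (not_lt.mpr huy)
  obtain ⟨η, hη, hball⟩ := Metric.mem_nhds_iff.mp (hPclosed.isOpen_compl.mem_nhds haP)
  have hδlim : Tendsto (fun n : ℕ => 1 / (((φ n : ℕ) : ℝ) + 1)) atTop (𝓝 0) :=
    tendsto_one_div_add_atTop_nhds_zero_nat.comp hφ.tendsto_atTop
  have hev1 : ∀ᶠ n in atTop, dist (x (φ n)) a < η / 2 :=
    (Metric.tendsto_nhds.mp hlim) (η / 2) (by positivity)
  have hev2 : ∀ᶠ n in atTop, 1 / (((φ n : ℕ) : ℝ) + 1) < η / 2 :=
    hδlim.eventually (gt_mem_nhds (by positivity))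
  have hev : ∀ᶠ n in atTop, ℓ (x (φ n)) ≤ u := by
    filter_upwards [hev1, hev2] with n h1 h2
    have : x (φ n) ∈ {y : F | ℓ y < u} := by
      apply hx (φ n) _ (convex_halfSpace_lt ℓ.isLinear u)
      intro x' hx'K hdist y hy
      have hx'a : dist x' a < η := by
        calc dist x' a ≤ dist x' (x (φ n)) + dist (x (φ n)) a := dist_triangle _ _ _
          _ < η / 2 + η / 2 := by rw [dist_comm x']; linarith
          _ = η := by ring
      have hx'P : x' ∉ P := hball (mem_ball.mpr hx'a)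
      by_contra hcon
      have hcon' : u ≤ ℓ y := not_lt.mp hcon
      exact hx'P ⟨(x', y), ⟨⟨hx'K, hy⟩, hcon'⟩, rfl⟩
    exact le_of_lt this
  have hlim2 : Tendsto (fun n => ℓ (x (φ n))) atTop (𝓝 (ℓ a)) :=
    (ℓ.continuous.tendsto a).comp hlim
  exact absurd (le_of_tendsto hlim2 hev) (not_le.mpr hu)

end Claimed.Agent.FixPt
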