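import Claimed.Agent.FixPt.DetPoly
import Claimed.Agent.FixPt.BallImage

/-!
Toolbox FixPt (Brouwer / Kakutani), file 3: there is no Lipschitz retraction of the closed unit ball
onto the unit sphere which is differentiable in the open ball (Milnor--Rogers volume argument).
Owner: helper210.
-/

set_option autoImplicit false

open Metric Set MeasureTheory Filter Topology
open scoped RealInnerProductSpace NNReal ENNReal

namespace Claimed.Agent.FixPt

variable {E : Type*} [NormedAddCommGroup E] [InnerProductSpace ℝ E] [FiniteDimensional ℝ E]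

/-- Integrability of `det (1 + t (Dr - 1))` on the unit ball. -/
theorem fp_integrableOn_det [MeasurableSpace E] [BorelSpace E] {r : E → E} {C : ℝ≥0}
    (hL : LipschitzOnWith C r (closedBall 0 1)) (t : ℝ) :
    IntegrableOn (fun x => (ContinuousLinearMap.id ℝ E +
      t • (fderiv ℝ r x - ContinuousLinearMap.id ℝ E)).det) (ball 0 1) volume := by
  have : ProperSpace (E →L[ℝ] E) := FiniteDimensional.proper_real _
  set G : (E →L[ℝ] E) → ℝ := fun B => (ContinuousLinearMap.id ℝ E +
      t • (B - ContinuousLinearMap.id ℝ E)).det with hG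
  have hGc : Continuous G :=
    ContinuousLinearMap.continuous_det.comp
      (continuous_const.add ((continuous_id.sub continuous_const).const_smul t))
  obtain ⟨M, hM⟩ := (isCompact_closedBall (0 : E →L[ℝ] E) C).exists_bound_of_continuousOn
    hGc.continuousOn
  have hmeas : Measurable fun x => G (fderiv ℝ r x) := hGc.measurable.comp (measurable_fderiv ℝ r)
  refine Measure.integrableOn_of_bounded (M := M) measure_ball_lt_top.ne
    hmeas.aestronglyMeasurable ?_
  refine (ae_restrict_iff' measurableSet_ball).2 (Eventually.of_forall fun x hx => ?_)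
  refine hM _ ?_
  rw [mem_closedBall_zero_iff]
  exact norm_fderiv_le_of_lipschitzOn ℝ
    (mem_of_superset (isOpen_ball.mem_nhds hx) ball_subset_closedBall) hL

theorem fp_no_retraction {r : E → E} {C : ℝ≥0} (hL : LipschitzOnWith C r (closedBall 0 1))
    (hd : ∀ x ∈ ball (0 : E) 1, DifferentiableAt ℝ r x)
    (hs : ∀ x ∈ closedBall (0 : E) 1, ‖r x‖ = 1) (hid : ∀ x ∈ sphere (0 : E) 1, r x = x) :
    False := by
  borelize E
  set A : E → E →L[ℝ] E := fun x => fderiv ℝ r x - ContinuousLinearMap.id ℝ E with hA
  have hAb : ∀ x ∈ ball (0 : E) 1, ‖A x‖ ≤ C + 1 := by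
    intro x hx
    have h1 : ‖fderiv ℝ r x‖ ≤ C := norm_fderiv_le_of_lipschitzOn ℝ
      (mem_of_superset (isOpen_ball.mem_nhds hx) ball_subset_closedBall) hL
    calc ‖A x‖ ≤ ‖fderiv ℝ r x‖ + ‖ContinuousLinearMap.id ℝ E‖ := norm_sub_le _ _
      _ ≤ C + 1 := add_le_add h1 ContinuousLinearMap.norm_id_le
  have hint : ∀ t : ℝ, IntegrableOn (fun x => (ContinuousLinearMap.id ℝ E + t • A x).det)
      (ball 0 1) volume := fun t => fp_integrableOn_det hL t
  obtain ⟨P, hP⟩ := fp_integral_det_poly volume (ball (0 : E) 1) A hint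
  set V : ℝ := (volume (ball (0 : E) 1)).toReal with hV
  have hVpos : 0 < V :=
    ENNReal.toReal_pos (measure_ball_pos volume (0 : E) one_pos).ne' measure_ball_lt_top.ne
  -- small `t`
  have hsmall : ∀ t : ℝ, 0 ≤ t → t * (C + 2) < 1 → P.eval t = V := by
    intro t ht0 ht1
    have hC0 : (0 : ℝ) ≤ C := C.coe_nonneg
    have ht1' : t < 1 := by nlinarith
    set c : ℝ≥0 := ⟨t * (C + 1), by positivity⟩ with hc
    have hc1 : c < 1 := by
      rw [← NNReal.coe_lt_coe]
      show t * (C + 1) < 1
      nlinarith
    set g : E → E := fun x => t • (r x - x) with hg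
    have hgL : LipschitzOnWith c g (closedBall 0 1) := by
      refine LipschitzOnWith.of_dist_le_mul fun x hx y hy => ?_
      have h1 : dist (r x) (r y) ≤ C * dist x y := hL.dist_le_mul x hx y hy
      rw [dist_eq_norm] at h1 ⊢
      rw [dist_eq_norm] at h1 ⊢
      have e : g x - g y = t • ((r x - r y) - (x - y)) := by
        simp only [hg]
        rw [← smul_sub]
        congr 1
        abel
      rw [e, norm_smul, Real.norm_of_nonneg ht0]
      show t * _ ≤ t * (C + 1) * _
      have h2 : ‖(r x - r y) - (x - y)‖ ≤ ‖r x - r y‖ + ‖x - y‖ := norm_sub_le _ _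
      calc t * ‖(r x - r y) - (x - y)‖ ≤ t * (C * ‖x - y‖ + ‖x - y‖) :=
            mul_le_mul_of_nonneg_left (by linarith) ht0
        _ = t * (C + 1) * ‖x - y‖ := by ring
    have hmaps : ∀ x ∈ ball (0 : E) 1, x + g x ∈ ball (0 : E) 1 := by
      intro x hx
      have hx' : ‖x‖ < 1 := by simpa using hx
      have h1 := hs x (ball_subset_closedBall hx)
      rw [mem_ball_zero_iff]
      have e : x + g x = (1 - t) • x + t • r x := by
        simp only [hg]
        module
      rw [e]
      calc ‖(1 - t) • x + t • r x‖ ≤ ‖(1 - t) • x‖ + ‖t • r x‖ := norm_add_le _ _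
        _ = (1 - t) * ‖x‖ + t * 1 := by
            rw [norm_smul, norm_smul, Real.norm_of_nonneg ht0,
              Real.norm_of_nonneg (by linarith : (0 : ℝ) ≤ 1 - t), h1]
        _ < 1 := by nlinarith
    have hbd : ∀ x ∈ sphere (0 : E) 1, g x = 0 := by
      intro x hx
      simp only [hg]
      rw [hid x hx, sub_self, smul_zero]
    have himg := fp_image_ball hc1 hgL hmaps hbd
    have hinj : InjOn (fun x => x + g x) (ball (0 : E) 1) :=
      fp_injOn hc1 (hgL.mono ball_subset_closedBall)
    have hder : ∀ x ∈ ball (0 : E) 1, HasFDerivWithinAt (fun x => x + g x)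
        (ContinuousLinearMap.id ℝ E + t • A x) (ball 0 1) x := by
      intro x hx
      have h1 : HasFDerivAt r (fderiv ℝ r x) x := (hd x hx).hasFDerivAt
      have h2 : HasFDerivAt g (t • A x) x := (h1.sub (hasFDerivAt_id x)).const_smul t
      exact ((hasFDerivAt_id x).add h2).hasFDerivWithinAt
    have hcv := lintegral_abs_det_fderiv_eq_addHaar_image (volume : Measure E) measurableSet_ball
      hder hinj
    rw [himg] at hcv
    have hpos : ∀ x ∈ ball (0 : E) 1, 0 < (ContinuousLinearMap.id ℝ E + t • A x).det := by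
      intro x hx
      refine fp_det_pos (A x) ht0 ?_
      have := hAb x hx
      nlinarith [norm_nonneg (A x)]
    have h3 : ∫⁻ x in ball (0 : E) 1,
        ENNReal.ofReal |(ContinuousLinearMap.id ℝ E + t • A x).det| ∂volume
        = ENNReal.ofReal (∫ x in ball (0 : E) 1,
          (ContinuousLinearMap.id ℝ E + t • A x).det ∂volume) := by
      rw [ofReal_integral_eq_lintegral_ofReal (hint t)
        ((ae_restrict_iff' measurableSet_ball).2 (Eventually.of_forall fun x hx => (hpos x hx).le))]
      refine setLIntegral_congr_fun measurableSet_ball fun x hx => ?_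
      rw [abs_of_pos (hpos x hx)]
    rw [h3, ← hP t] at hcv
    have h4 : 0 ≤ P.eval t := by
      rw [hP t]
      exact setIntegral_nonneg measurableSet_ball fun x hx => (hpos x hx).le
    rw [hV, ← hcv, ENNReal.toReal_ofReal h4]
  -- the polynomial is constant
  have hconst : P = Polynomial.C V := by
    refine Polynomial.eq_of_infinite_eval_eq _ _ ?_
    have hC2 : (0 : ℝ) < C + 2 := by positivity
    refine (Set.Ico_infinite (show (0 : ℝ) < 1 / (C + 2) by positivity)).mono ?_
    intro t ht
    have : t * (C + 2) < 1 := by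
      have := ht.2
      rwa [lt_div_iff₀ hC2] at this
    show P.eval t = (Polynomial.C V).eval t
    rw [Polynomial.eval_C]
    exact hsmall t ht.1 this
  -- value at `t = 1`
  have hone : P.eval 1 = 0 := by
    rw [hP 1]
    refine setIntegral_eq_zero_of_forall_eq_zero fun x hx => ?_
    have e : ContinuousLinearMap.id ℝ E + (1 : ℝ) • A x = fderiv ℝ r x := by
      simp [hA]
    rw [e]
    refine fp_det_eq_zero_of_sphere (hd x hx).hasFDerivAt ?_
    filter_upwards [isOpen_ball.mem_nhds hx] with y hy
    exact hs y (ball_subset_closedBall hy)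
  rw [hconst, Polynomial.eval_C] at hone
  exact hVpos.ne' hone

end Claimed.Agent.FixPt
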