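import Claimed.Agent.FixPt.Kakutani

/-!
Toolbox FixPt (Brouwer / Kakutani), file 8: simultaneous profiles (hypercube Ramsey paper,
Lemma 3.2, second half).  Finitely many players choose actions independently according to profiles;
if every player can meet his expected-vector bounds against every choice of the other profiles,
then all bounds can be met simultaneously.
Owner: helper210.
-/

set_option autoImplicit false

open Set

namespace Claimed.Agent.FixPt

/-- The product weight of an action tuple under a profile. -/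
def fpW {J : Type*} [Fintype J] {A : J → Type*} (p : ∀ j, A j → ℝ) (a : ∀ j, A j) : ℝ :=
  ∏ j, p j (a j)

/-- The weight is linear in the profile of one player. -/
theorem fpW_update {J : Type*} [Fintype J] [DecidableEq J] {A : J → Type*} (p : ∀ j, A j → ℝ)
    (j : J) (u : A j → ℝ) (a : ∀ j, A j) :
    fpW (Function.update p j u) a = u (a j) * ∏ i ∈ Finset.univ \ {j}, p i (a i) := by
  unfold fpW
  have e : ∀ i, (Function.update p j u i) (a i)
      = Function.update (fun k => p k (a k)) j (u (a j)) i := fun i =>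
    Function.apply_update (fun i (h : A i → ℝ) => h (a i)) p j u i
  simp_rw [e]
  exact Finset.prod_update_of_mem (Finset.mem_univ j) _ _

theorem fp_profiles {J : Type*} [Fintype J] [DecidableEq J] {A : J → Type*}
    [∀ j, Fintype (A j)] [∀ j, Nonempty (A j)] {ι : J → Type*}
    (X : ∀ j, (∀ i, A i) → ι j → ℝ) (b : ∀ j, ι j → ℝ)
    (hresp : ∀ p : ∀ j, A j → ℝ, (∀ j, p j ∈ stdSimplex ℝ (A j)) → ∀ j,
      ∃ q ∈ stdSimplex ℝ (A j), ∀ k,
        ∑ a : (∀ i, A i), fpW (Function.update p j q) a * X j a k ≤ b j k) :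
    ∃ p : ∀ j, A j → ℝ, (∀ j, p j ∈ stdSimplex ℝ (A j)) ∧
      ∀ j k, ∑ a : (∀ i, A i), fpW p a * X j a k ≤ b j k := by
  classical
  set K : Set (∀ j, A j → ℝ) := Set.pi univ fun j => stdSimplex ℝ (A j) with hKdef
  have hKmem : ∀ p : ∀ j, A j → ℝ, p ∈ K ↔ ∀ j, p j ∈ stdSimplex ℝ (A j) := by
    intro p
    simp [hKdef, Set.mem_pi]
  have hK : IsCompact K := isCompact_univ_pi fun j => isCompact_stdSimplex ℝ (A j)
  have hconv : Convex ℝ K := convex_pi fun j _ => convex_stdSimplex ℝ (A j)
  have hne : K.Nonempty := by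
    refine ⟨fun j => Pi.single (Classical.arbitrary (A j)) 1, (hKmem _).2 fun j => ?_⟩
    exact single_mem_stdSimplex ℝ _
  set Φ : (∀ j, A j → ℝ) → Set (∀ j, A j → ℝ) := fun p =>
    {q | q ∈ K ∧ ∀ j k, ∑ a : (∀ i, A i), fpW (Function.update p j (q j)) a * X j a k ≤ b j k}
    with hΦ
  have hA : ∀ p ∈ K, (Φ p).Nonempty := by
    intro p hp
    choose q hq hq' using hresp p ((hKmem p).1 hp)
    exact ⟨q, (hKmem q).2 hq, hq'⟩
  have hB : ∀ p ∈ K, Convex ℝ (Φ p) := by
    intro p _
    have h1 : Φ p = K ∩ ⋂ j, ⋂ k,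
        {q | ∑ a : (∀ i, A i), fpW (Function.update p j (q j)) a * X j a k ≤ b j k} := by
      ext q
      simp [hΦ]
    rw [h1]
    refine hconv.inter (convex_iInter fun j => convex_iInter fun k => ?_)
    refine convex_halfSpace_le ?_ _
    constructor
    · intro q q'
      simp only [fpW_update, Pi.add_apply, add_mul, Finset.sum_add_distrib]
    · intro c q
      simp only [fpW_update, Pi.smul_apply, smul_eq_mul, Finset.mul_sum, mul_assoc]
  have hC : ∀ p ∈ K, Φ p ⊆ K := by
    intro p _ q hq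
    exact hq.1
  have hD : IsClosed {z : (∀ j, A j → ℝ) × (∀ j, A j → ℝ) | z.1 ∈ K ∧ z.2 ∈ Φ z.1} := by
    have h1 : {z : (∀ j, A j → ℝ) × (∀ j, A j → ℝ) | z.1 ∈ K ∧ z.2 ∈ Φ z.1}
        = (Prod.fst ⁻¹' K) ∩ ((Prod.snd ⁻¹' K) ∩ ⋂ j, ⋂ k,
          {z | ∑ a : (∀ i, A i), fpW (Function.update z.1 j (z.2 j)) a * X j a k ≤ b j k}) := by
      ext z
      simp [hΦ]
    rw [h1]
    refine (hK.isClosed.preimage continuous_fst).inter
      ((hK.isClosed.preimage continuous_snd).inter
        (isClosed_iInter fun j => isClosed_iInter fun k => ?_))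
    refine isClosed_le ?_ continuous_const
    simp only [fpW_update]
    fun_prop
  obtain ⟨p, hpK, hp⟩ := fp_kakutani hK hconv hne Φ hA hB hC hD
  refine ⟨p, (hKmem p).1 hpK, fun j k => ?_⟩
  have := hp.2 j k
  rwa [Function.update_eq_self] at this

end Claimed.Agent.FixPt
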