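import Claimed.Agent.FixPt.NoRetract

/-!
Toolbox FixPt (Brouwer / Kakutani), file 4: Brouwer for `C^1` self-maps of the closed unit ball, by
the ray retraction `r x = x + lam x • (x - p x)`,
`lam = (-⟪x,u⟫ + √(⟪x,u⟫^2 + ‖u‖^2 (1 - ‖x‖^2))) / ‖u‖^2`, `u = x - p x`.
Blueprint: helper210.  Proof: helper291.
-/

set_option autoImplicit false

open Metric Set Filter Topology
open scoped RealInnerProductSpace NNReal

namespace Claimed.Agent.FixPt

variable {E : Type*} [NormedAddCommGroup E] [InnerProductSpace ℝ E] [FiniteDimensional ℝ E]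

/-- Scalar identity behind the ray retraction. -/
theorem fp_ray_quadratic {a b c : ℝ} (ha : a ≠ 0) (hd : 0 ≤ b ^ 2 + a * c) :
    a * ((-b + √(b ^ 2 + a * c)) / a) ^ 2 + 2 * b * ((-b + √(b ^ 2 + a * c)) / a) = c := by
  have hs : √(b ^ 2 + a * c) ^ 2 = b ^ 2 + a * c := Real.sq_sqrt hd
  set s := √(b ^ 2 + a * c) with hsdef
  field_simp
  nlinarith [hs]

theorem fp_brouwer_smooth {p : E → E} (hp : ContDiff ℝ 1 p)
    (hmaps : ∀ x ∈ closedBall (0 : E) 1, p x ∈ closedBall (0 : E) 1) :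
    ∃ x ∈ closedBall (0 : E) 1, p x = x := by
  by_contra hno
  push Not at hno
  set u : E → E := fun x => x - p x with hu
  set a : E → ℝ := fun x => ‖u x‖ ^ 2 with ha
  set b : E → ℝ := fun x => ⟪x, u x⟫ with hb
  set c : E → ℝ := fun x => 1 - ‖x‖ ^ 2 with hc
  set D : E → ℝ := fun x => b x ^ 2 + a x * c x with hD
  set lam : E → ℝ := fun x => (-b x + √(D x)) / a x with hlam
  set r : E → E := fun x => x + lam x • u x with hr
  have hu1 : ContDiff ℝ 1 u := contDiff_id.sub hp
  have ha1 : ContDiff ℝ 1 a := hu1.norm_sq ℝ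
  have hb1 : ContDiff ℝ 1 b := contDiff_id.inner ℝ hu1
  have hc1 : ContDiff ℝ 1 c := contDiff_const.sub (contDiff_id.norm_sq ℝ)
  have hD1 : ContDiff ℝ 1 D := (hb1.pow 2).add (ha1.mul hc1)
  -- facts on the closed ball
  have hapos : ∀ x ∈ closedBall (0 : E) 1, 0 < a x := by
    intro x hx
    have : u x ≠ 0 := sub_ne_zero.2 (hno x hx).symm
    positivity
  have hc0 : ∀ x ∈ closedBall (0 : E) 1, 0 ≤ c x := by
    intro x hx
    have hx' : ‖x‖ ≤ 1 := by simpa using hx
    have : ‖x‖ ^ 2 ≤ 1 := by nlinarith [norm_nonneg x]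
    simp only [hc]; linarith
  have hbpos : ∀ x ∈ sphere (0 : E) 1, 0 < b x := by
    intro x hx
    have hx1 : ‖x‖ = 1 := by simpa using hx
    have hxc : x ∈ closedBall (0 : E) 1 := sphere_subset_closedBall hx
    have hpx : ‖p x‖ ≤ 1 := by simpa using hmaps x hxc
    have h1 : a x = ‖x‖ ^ 2 - 2 * ⟪x, p x⟫ + ‖p x‖ ^ 2 := norm_sub_sq_real x (p x)
    have h2 : b x = ‖x‖ ^ 2 - ⟪x, p x⟫ := by
      simp only [hb, hu]
      rw [inner_sub_right, real_inner_self_eq_norm_sq]
    have h3 := hapos x hxc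
    have h4 : ‖p x‖ ^ 2 ≤ 1 := by nlinarith [norm_nonneg (p x)]
    rw [hx1] at h1 h2
    nlinarith
  have hDpos : ∀ x ∈ closedBall (0 : E) 1, 0 < D x := by
    intro x hx
    have hx' : ‖x‖ ≤ 1 := by simpa using hx
    rcases hx'.lt_or_eq with h | h
    · have h1 : 0 < c x := by
        simp only [hc]
        nlinarith [norm_nonneg x]
      have h2 := mul_pos (hapos x hx) h1
      have h3 := sq_nonneg (b x)
      simp only [hD]; linarith
    · have h1 := hbpos x (by simpa using h)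
      have h2 := mul_nonneg (hapos x hx).le (hc0 x hx)
      have h3 : 0 < b x ^ 2 := by positivity
      simp only [hD]; linarith
  -- the open set on which `r` is `C^1`
  set W : Set E := {x | a x ≠ 0} ∩ {x | 0 < D x} with hW
  have hWo : IsOpen W :=
    (isOpen_ne_fun ha1.continuous continuous_const).inter
      (isOpen_lt continuous_const hD1.continuous)
  have hBW : closedBall (0 : E) 1 ⊆ W := fun x hx => ⟨(hapos x hx).ne', hDpos x hx⟩
  have hrW : ∀ x ∈ W, ContDiffAt ℝ 1 r x := by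
    intro x hx
    have h1 : ContDiffAt ℝ 1 (fun y => √(D y)) x := hD1.contDiffAt.sqrt hx.2.ne'
    have h2 : ContDiffAt ℝ 1 lam x := (hb1.contDiffAt.neg.add h1).div ha1.contDiffAt hx.1
    exact contDiffAt_id.add (h2.smul hu1.contDiffAt)
  have hrOn : ContDiffOn ℝ 1 r W := fun x hx => (hrW x hx).contDiffWithinAt
  have hfc : ContinuousOn (fderiv ℝ r) W := hrOn.continuousOn_fderiv_of_isOpen hWo le_rfl
  obtain ⟨C, hC⟩ := (isCompact_closedBall (0 : E) 1).exists_bound_of_continuousOn (hfc.mono hBW)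
  have hdiff : ∀ x ∈ closedBall (0 : E) 1, DifferentiableAt ℝ r x := fun x hx =>
    (hrW x (hBW hx)).differentiableAt (by norm_num)
  have hL : LipschitzOnWith C.toNNReal r (closedBall 0 1) := by
    refine Convex.lipschitzOnWith_of_nnnorm_fderiv_le hdiff (fun x hx => ?_)
      (convex_closedBall _ _)
    rw [← NNReal.coe_le_coe, coe_nnnorm]
    exact (hC x hx).trans (Real.le_coe_toNNReal C)
  refine fp_no_retraction hL (fun x hx => hdiff x (ball_subset_closedBall hx)) ?_ ?_
  · intro x hx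
    have h1 : ‖r x‖ ^ 2 = ‖x‖ ^ 2 + 2 * ⟪x, lam x • u x⟫ + ‖lam x • u x‖ ^ 2 :=
      norm_add_sq_real x (lam x • u x)
    have h2 : ⟪x, lam x • u x⟫ = lam x * b x := by rw [inner_smul_right]
    have h3 : ‖lam x • u x‖ ^ 2 = lam x ^ 2 * a x := by
      rw [norm_smul, mul_pow, Real.norm_eq_abs, sq_abs]
    have h4 := fp_ray_quadratic (a := a x) (b := b x) (c := c x) (hapos x hx).ne' (hDpos x hx).le
    have h5 : a x * lam x ^ 2 + 2 * b x * lam x = 1 - ‖x‖ ^ 2 := h4
    have h6 : ‖r x‖ ^ 2 = 1 := by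
      rw [h1, h2, h3]; linarith
    have h7 : ‖r x‖ = 1 := by
      have := norm_nonneg (r x)
      nlinarith
    exact h7
  · intro x hx
    have hx1 : ‖x‖ = 1 := by simpa using hx
    have hb0 := hbpos x hx
    have hcx : c x = 0 := by simp only [hc]; rw [hx1]; norm_num
    have hDx : D x = b x ^ 2 := by simp only [hD]; rw [hcx, mul_zero, add_zero]
    have hl : lam x = 0 := by
      simp only [hlam]
      rw [hDx, Real.sqrt_sq hb0.le, neg_add_cancel, zero_div]
    simp only [hr]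
    rw [hl, zero_smul, add_zero]

end Claimed.Agent.FixPt
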